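import Mathlib

/-! # P281, project T-G (helper456): the inverse function theorem for holomorphic maps of manifolds -/

open Set Filter
open scoped Topology ContDiff Manifold

noncomputable section

namespace Vale.Agent.P281.H456.TG

variable {E : Type*} [NormedAddCommGroup E] [NormedSpace ℂ E] [FiniteDimensional ℂ E]
  {X Y : Type*} [TopologicalSpace X] [ChartedSpace E X] [IsManifold 𝓘(ℂ, E) ω X]
  [TopologicalSpace Y] [ChartedSpace E Y] [IsManifold 𝓘(ℂ, E) ω Y]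

/-- a holomorphic map with injective differential at `x` has a holomorphic inverse near `x` -/
theorem ift {f : X → Y} {x : X} (hf : ContMDiff 𝓘(ℂ, E) 𝓘(ℂ, E) ω f)
    (hi : Function.Injective (mfderiv 𝓘(ℂ, E) 𝓘(ℂ, E) f x)) :
    ∃ (U : Set X) (s : Y → X), IsOpen U ∧ x ∈ U ∧
      ∀ z ∈ U, s (f z) = z ∧ ContMDiffAt 𝓘(ℂ, E) 𝓘(ℂ, E) ω s (f z) := by
  set φ := chartAt E x with hφ
  set ψ := chartAt E (f x) with hψ
  have hxφ : x ∈ φ.source := mem_chart_source E x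
  have hyψ : f x ∈ ψ.source := mem_chart_source E (f x)
  set F : E → E := ψ ∘ f ∘ φ.symm with hF
  have hcd : ContDiffAt ℂ ω F (φ x) := by
    have h := (contMDiffAt_iff.1 (hf x)).2
    simpa [hF, hφ, hψ, mfld_simps, contDiffWithinAt_univ] using h
  have hmd : MDifferentiableAt 𝓘(ℂ, E) 𝓘(ℂ, E) f x :=
    (hf x).mdifferentiableAt (by simp)
  have hfd : mfderiv 𝓘(ℂ, E) 𝓘(ℂ, E) f x = fderiv ℂ F (φ x) := by
    rw [hmd.mfderiv]
    simp [writtenInExtChartAt, hF, hφ, hψ, mfld_simps, fderivWithin_univ]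
    rfl
  have hi' : Function.Injective (fderiv ℂ F (φ x)) := by rw [← hfd]; exact hi
  set A : E ≃L[ℂ] E :=
    (LinearEquiv.ofInjectiveEndo ((fderiv ℂ F (φ x) : E →L[ℂ] E) : E →ₗ[ℂ] E)
      hi').toContinuousLinearEquiv with hA
  have hA' : (A : E →L[ℂ] E) = fderiv ℂ F (φ x) := by
    ext v
    rfl
  have hFA : HasFDerivAt F (A : E →L[ℂ] E) (φ x) := by
    rw [hA']
    exact (hcd.differentiableAt (by simp)).hasFDerivAt
  have : CompleteSpace E := FiniteDimensional.complete ℂ E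
  set e := hcd.toOpenPartialHomeomorph F hFA (by simp) with he
  have he1 : φ x ∈ e.source := hcd.mem_toOpenPartialHomeomorph_source hFA (by simp)
  have heF : ∀ w, e w = F w := fun w => rfl
  have he2 : e (φ x) ∈ e.target := e.map_source he1
  have hsymm : ContDiffAt ℂ ω e.symm (e (φ x)) := by
    refine e.contDiffAt_symm (f₀' := A) he2 ?_ ?_
    · rw [e.left_inv he1]
      exact hFA
    · rw [e.left_inv he1]
      exact hcd
  have hev : ∀ᶠ w in 𝓝 (e (φ x)), ContDiffAt ℂ ω e.symm w :=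
    (hsymm.analyticAt.eventually_analyticAt).mono fun w hw => hw.contDiffAt
  obtain ⟨W, hW1, hW2, hW3⟩ := eventually_nhds_iff.1 hev
  -- the neighbourhood
  have hfc : Continuous f := hf.continuous
  have hU1 : ∀ᶠ z in 𝓝 x, z ∈ φ.source ∧ f z ∈ ψ.source ∧ φ z ∈ e.source ∧ ψ (f z) ∈ W := by
    have a1 : ∀ᶠ z in 𝓝 x, z ∈ φ.source := φ.open_source.mem_nhds hxφ
    have a2 : ∀ᶠ z in 𝓝 x, f z ∈ ψ.source := hfc.continuousAt.eventually
      (ψ.open_source.mem_nhds hyψ)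
    have a3 : ∀ᶠ z in 𝓝 x, φ z ∈ e.source := (φ.continuousAt hxφ).eventually
      (e.open_source.mem_nhds he1)
    have a4 : ∀ᶠ z in 𝓝 x, ψ (f z) ∈ W := by
      have h1 : ContinuousAt (fun z => ψ (f z)) x :=
        ContinuousAt.comp (g := ψ) (f := f) (ψ.continuousAt hyψ) hfc.continuousAt
      refine h1.eventually (hW2.mem_nhds ?_)
      have h2 : e (φ x) = ψ (f x) := by
        rw [heF]
        simp only [hF, Function.comp_apply, φ.left_inv hxφ]
      show ψ (f x) ∈ W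
      rw [← h2]
      exact hW3
    filter_upwards [a1, a2, a3, a4] with z b1 b2 b3 b4 using ⟨b1, b2, b3, b4⟩
  obtain ⟨U, hU2, hU3, hU4⟩ := eventually_nhds_iff.1 hU1
  refine ⟨U, fun y => φ.symm (e.symm (ψ y)), hU3, hU4, fun z hz => ?_⟩
  obtain ⟨b1, b2, b3, b4⟩ := hU2 z hz
  have h3 : e (φ z) = ψ (f z) := by
    rw [heF]
    simp only [hF, Function.comp_apply, φ.left_inv b1]
  have h4 : e.symm (ψ (f z)) = φ z := by
    rw [← h3, e.left_inv b3]
  refine ⟨?_, ?_⟩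
  · show φ.symm (e.symm (ψ (f z))) = z
    rw [h4, φ.left_inv b1]
  · have c1 : ContMDiffAt 𝓘(ℂ, E) 𝓘(ℂ, E) ω ψ (f z) :=
      (contMDiffOn_chart (I := 𝓘(ℂ, E)) (n := ω) (x := f x)).contMDiffAt
        (ψ.open_source.mem_nhds b2)
    have c2 : ContMDiffAt 𝓘(ℂ, E) 𝓘(ℂ, E) ω e.symm (ψ (f z)) :=
      (hW1 _ b4).contMDiffAt
    have c3 : ContMDiffAt 𝓘(ℂ, E) 𝓘(ℂ, E) ω φ.symm (e.symm (ψ (f z))) := by
      rw [h4]
      exact (contMDiffOn_chart_symm (I := 𝓘(ℂ, E)) (n := ω) (x := x)).contMDiffAt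
        (φ.open_target.mem_nhds (φ.map_source b1))
    exact ContMDiffAt.comp (f z) c3 (ContMDiffAt.comp (f z) c2 c1)

end Vale.Agent.P281.H456.TG
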