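import Vale.Agent.P281.H150.Gen.SThin
import Vale.Agent.P281.H969.TG.Spec
import Vale.Agent.P281.H456.TG.Ift

/-! # P281, project T-G, block G2 (helper456): the image of a small set by `v`, étale off `v⁻¹(S₀)`,
is small -/

open Set Filter Metric Vale.Agent.P281 Vale.Agent.P281.J Vale.Agent.P281.H713
open Vale.Agent.P281.H64.Thin (IsThinSet)
open Vale.Agent.P281.H64.Gen (IsSmallSet)
open Vale.Agent.P281.H64 (Cm)
open Vale.Agent.P281.H150.Gen
open scoped Topology ContDiff Manifold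

noncomputable section

namespace Vale.Agent.P281.H456.TG

/-- the image of a compact piece of a thin set by an injective étale map is thin -/
theorem thin_image {p : ℕ} {Y₁ Y : Type} [TopologicalSpace Y₁]
    [ChartedSpace (Cm p) Y₁] [TopologicalSpace Y] [T2Space Y]
    [ChartedSpace (Cm p) Y] {v : Y₁ → Y} (hv : ContMDiff 𝓘(ℂ, Cm p) 𝓘(ℂ, Cm p) ω v)
    {U N H : Set Y₁} {s : Y → Y₁} (hU : IsOpen U)
    (hs : ∀ z ∈ U, s (v z) = z ∧ ContMDiffAt 𝓘(ℂ, Cm p) 𝓘(ℂ, Cm p) ω s (v z))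
    (hN : IsCompact N) (hNU : N ⊆ U) (hH : IsThinSet (Cm p) H) :
    IsThinSet (Cm p) (v '' (H ∩ N)) := by
  refine thin_of_isClosed ((hN.inter_left hH.1).image hv.continuous).isClosed ?_
  rintro _ ⟨w, ⟨hwH, hwN⟩, rfl⟩
  obtain ⟨g, hg1, hg2, hg3⟩ := hH.2 w
  obtain ⟨hs1, hs2⟩ := hs w (hNU hwN)
  refine ⟨fun y => g (s y), ?_, fun h => hg2 ?_, ?_⟩
  · have hg1' : ContMDiffAt 𝓘(ℂ, Cm p) 𝓘(ℂ, ℂ) ω g (s (v w)) := by rw [hs1]; exact hg1
    exact ContMDiffAt.comp (v w) hg1' hs2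
  · filter_upwards [hv.continuous.continuousAt.eventually h, hU.mem_nhds (hNU hwN)] with z h1 h2
    have h3 : g (s (v z)) = 0 := h1
    rwa [(hs z h2).1] at h3
  · have hc : Tendsto s (𝓝 (v w)) (𝓝 w) := by
      have := hs2.continuousAt
      rw [ContinuousAt, hs1] at this
      exact this
    filter_upwards [hc.eventually hg3] with y hy hy'
    obtain ⟨w', ⟨h1, h2⟩, rfl⟩ := hy'
    refine hy ?_
    rw [(hs w' (hNU h2)).1]
    exact h1

theorem vSmall : H969.TG.VSmallStmt := by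
  intro p Y₁ Y _ _ _ _ _ _ _ _ _ v S₀ S₁ hv hS₀ het hS₁
  have hcl : IsClosed (v '' S₁) := (hS₁.1.isCompact.image hv.continuous).isClosed
  refine ⟨hS₀.1.union hcl, ?_⟩
  have hsc : SecondCountableTopology Y₁ := ChartedSpace.secondCountable_of_sigmaCompact (Cm p) Y₁
  have hlc : LocallyCompactSpace Y₁ := ChartedSpace.locallyCompactSpace (Cm p) Y₁
  have hS₀' : SThin (Cm p) S₀ := hS₀.2
  obtain ⟨H, hH1, hH2⟩ := hS₁.2
  have key : SThin (Cm p) (v '' (S₁ \ v ⁻¹' S₀)) := by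
    refine SThin.image_of_local fun z hz => ?_
    obtain ⟨U, s, hU, hzU, hs⟩ := ift hv (het z hz.2)
    obtain ⟨N, hN1, hN2, hN3⟩ := local_compact_nhds (hU.mem_nhds hzU)
    refine ⟨N, hN1, ?_⟩
    have h1 : SThin (Cm p) (⋃ k, v '' (H k ∩ N)) :=
      SThin.iUnion fun k => SThin.of_thin (thin_image hv hU hs hN3 hN2 (hH1 k)) subset_rfl
    refine h1.mono ?_
    rintro _ ⟨w, ⟨hw1, hw2⟩, rfl⟩
    obtain ⟨k, hk⟩ := mem_iUnion.1 (hH2 hw1.1)
    exact mem_iUnion.2 ⟨k, w, ⟨hk, hw2⟩, rfl⟩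
  have htot : SThin (Cm p) (S₀ ∪ v '' (S₁ \ v ⁻¹' S₀)) := SThin.union hS₀' key
  refine htot.mono ?_
  rintro y (hy | ⟨w, hw, rfl⟩)
  · exact Or.inl hy
  · by_cases h : v w ∈ S₀
    · exact Or.inl h
    · exact Or.inr ⟨w, ⟨hw, h⟩, rfl⟩

end Vale.Agent.P281.H456.TG
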